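import Mathlib
import Vale.Agent.P033.Defs
import Vale.Agent.P033.CH.Final
import Vale.Agent.P033.CH.Turyn
import Vale.Agent.P033.CH.Link

/-!
# Barker sequences of even length

A Barker sequence of even length `n > 2` has vanishing periodic autocorrelations, so `n = 4` by the
circulant Hadamard theorem.
-/

namespace Vale.Agent.P033.H953

open Finset

/-- the circulant Hadamard theorem for sign functions on `ZMod n` -/
theorem seq_four {n : ℕ} [NeZero n] (s : ZMod n → ℤ) (hs1 : ∀ i, s i = 1 ∨ s i = -1)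
    (hac : ∀ t : ZMod n, t ≠ 0 → ∑ j, s j * s (j + t) = 0) : n = 1 ∨ n = 4 := by
  by_contra hcon
  have h1 : n ≠ 1 := fun e => hcon (Or.inl e)
  have h4 : n ≠ 4 := fun e => hcon (Or.inr e)
  obtain ⟨v, hv⟩ := Vale.Agent.P033.CH.order_shape h1 s hs1 hac
  rcases Nat.even_or_odd v with he | ho
  · exact Vale.Agent.P033.CH.not_even hv he s hs1 hac
  · refine Vale.Agent.P033.CH.no_seq hv ho ?_ s hs1 hac
    rintro rfl
    exact h4 (by rw [hv]; norm_num)

/-- a sum of `m` signs is `m - 1 + (their product)` modulo `4` -/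
theorem sign_sum_mod4 {ι : Type*} (s : Finset ι) (f : ι → ℤ) (hf : ∀ i ∈ s, f i = 1 ∨ f i = -1) :
    (∏ i ∈ s, f i = 1 ∨ ∏ i ∈ s, f i = -1) ∧
    ∃ c : ℤ, ∑ i ∈ s, f i = s.card - 1 + ∏ i ∈ s, f i + 4 * c := by
  classical
  induction s using Finset.induction_on with
  | empty => exact ⟨Or.inl (by simp), 0, by simp⟩
  | insert x s hx ih =>
    obtain ⟨hp, c, hc⟩ := ih (fun i hi => hf i (mem_insert_of_mem hi))
    have hx1 := hf x (mem_insert_self x s)
    rw [prod_insert hx, sum_insert hx, card_insert_of_notMem hx, hc]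
    push_cast
    rcases hx1 with h | h <;> rcases hp with hp | hp <;> rw [h, hp]
    · exact ⟨Or.inl (by norm_num), c, by ring⟩
    · exact ⟨Or.inr (by norm_num), c, by ring⟩
    · exact ⟨Or.inr (by norm_num), c, by ring⟩
    · exact ⟨Or.inl (by norm_num), c - 1, by ring⟩

/-- the product of the signs `a j`, `j < n` -/
theorem prod_sq_one (n : ℕ) (a : ℕ → ℤ) (ha : ∀ j < n, a j = 1 ∨ a j = -1) :
    (∏ j ∈ range n, a j) * (∏ j ∈ range n, a j) = 1 := by
  rcases (sign_sum_mod4 (range n) a (fun i hi => ha i (mem_range.mp hi))).1 with h | h <;>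
    rw [h] <;> norm_num

/-- the products belonging to `k` and `n - k` agree -/
theorem prod_prod (n k : ℕ) (hk : k ≤ n) (a : ℕ → ℤ) (ha : ∀ j < n, a j = 1 ∨ a j = -1) :
    (∏ j ∈ range (n - k), a j * a (j + k)) * (∏ j ∈ range k, a j * a (j + (n - k))) = 1 := by
  rw [prod_mul_distrib, prod_mul_distrib]
  have e1 : (∏ j ∈ range k, a j) * (∏ j ∈ range (n - k), a (j + k)) = ∏ j ∈ range n, a j := by
    have := prod_range_add (fun j => a j) k (n - k)
    rw [Nat.add_sub_cancel' hk] at this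
    rw [this]
    congr 1
    exact prod_congr rfl fun j _ => by rw [add_comm]
  have e2 : (∏ j ∈ range (n - k), a j) * (∏ j ∈ range k, a (j + (n - k))) = ∏ j ∈ range n, a j := by
    have := prod_range_add (fun j => a j) (n - k) k
    rw [Nat.sub_add_cancel hk] at this
    rw [this]
    congr 1
    exact prod_congr rfl fun j _ => by rw [add_comm]
  calc _ = ((∏ j ∈ range k, a j) * (∏ j ∈ range (n - k), a (j + k))) *
        ((∏ j ∈ range (n - k), a j) * (∏ j ∈ range k, a (j + (n - k)))) := by ring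
    _ = 1 := by rw [e1, e2, prod_sq_one n a ha]

/-- the aperiodic autocorrelations modulo `4` -/
theorem corr_mod4 (n k : ℕ) (hk : k ≤ n) (a : ℕ → ℤ) (ha : ∀ j < n, a j = 1 ∨ a j = -1) :
    ∃ p c : ℤ, (p = 1 ∨ p = -1) ∧ (∏ j ∈ range (n - k), a j * a (j + k)) = p ∧
      ∑ j ∈ range (n - k), a j * a (j + k) = ((n : ℤ) - k) - 1 + p + 4 * c := by
  have hs : ∀ i ∈ range (n - k), (a i * a (i + k) = 1 ∨ a i * a (i + k) = -1) := by
    intro i hi
    have hi' := mem_range.mp hi
    rcases ha i (by omega) with h | h <;> rcases ha (i + k) (by omega) with h' | h' <;>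
      rw [h, h'] <;> norm_num
  obtain ⟨h1, c, hc⟩ := sign_sum_mod4 (range (n - k)) (fun j => a j * a (j + k)) hs
  refine ⟨_, c, h1, rfl, ?_⟩
  rw [hc, card_range]
  push_cast [Nat.cast_sub hk]
  ring

/-- `C_k + C_{n-k} = n` modulo `4` -/
theorem corr_add_mod4 (n k : ℕ) (hk : k ≤ n) (a : ℕ → ℤ) (ha : ∀ j < n, a j = 1 ∨ a j = -1) :
    ∃ c : ℤ, (∑ j ∈ range (n - k), a j * a (j + k)) + (∑ j ∈ range k, a j * a (j + (n - k)))
      = n + 4 * c := by
  obtain ⟨p, c, hp, hp1, hc⟩ := corr_mod4 n k hk a ha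
  obtain ⟨q, d, hq, hq1, hd⟩ := corr_mod4 n (n - k) (Nat.sub_le n k) a ha
  rw [Nat.sub_sub_self hk] at hq1 hd
  have hpq := prod_prod n k hk a ha
  rw [hp1, hq1] at hpq
  rw [hc, hd]
  rcases hp with rfl | rfl <;> rcases hq with rfl | rfl
  · exact ⟨c + d, by push_cast [Nat.cast_sub hk]; ring⟩
  · norm_num at hpq
  · norm_num at hpq
  · exact ⟨c + d - 1, by push_cast [Nat.cast_sub hk]; ring⟩

/-- the periodic autocorrelation, on `ZMod n` and on `range n` -/
theorem periodic_range {n : ℕ} [NeZero n] (a : ℕ → ℤ) (t : ZMod n) :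
    ∑ j : ZMod n, a j.val * a (j + t).val = ∑ j ∈ range n, a j * a ((j + t.val) % n) := by
  refine sum_bij' (fun j _ => j.val) (fun j _ => (j : ZMod n)) ?_ ?_ ?_ ?_ ?_
  · intro j _; exact mem_range.mpr (ZMod.val_lt j)
  · intro j _; exact mem_univ _
  · intro j _; exact ZMod.natCast_zmod_val j
  · intro j hj; exact ZMod.val_cast_of_lt (mem_range.mp hj)
  · intro j _; rw [ZMod.val_add]

/-- the periodic autocorrelation is the sum of two aperiodic ones -/
theorem periodic_split (n t : ℕ) (ht : t < n) (a : ℕ → ℤ) :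
    ∑ j ∈ range n, a j * a ((j + t) % n)
      = (∑ j ∈ range (n - t), a j * a (j + t)) + ∑ j ∈ range t, a j * a (j + (n - t)) := by
  have h2 : n = (n - t) + t := by omega
  have h3 := sum_range_add (fun j => a j * a ((j + t) % n)) (n - t) t
  rw [← h2] at h3
  rw [h3]
  congr 1
  · refine sum_congr rfl fun j hj => ?_
    have hj' := mem_range.mp hj
    rw [Nat.mod_eq_of_lt (by omega)]
  · refine sum_congr rfl fun j hj => ?_
    have hj' := mem_range.mp hj
    have e : (n - t + j + t) % n = j := by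
      have : n - t + j + t = j + n := by omega
      rw [this, Nat.add_mod_right, Nat.mod_eq_of_lt (by omega)]
    rw [e, mul_comm, add_comm j]

/-- the periodic autocorrelation is the sum of two aperiodic ones -/
theorem periodic_eq {n : ℕ} [NeZero n] (a : ℕ → ℤ) (t : ZMod n) :
    ∑ j : ZMod n, a j.val * a (j + t).val
      = (∑ j ∈ range (n - t.val), a j * a (j + t.val))
        + ∑ j ∈ range t.val, a j * a (j + (n - t.val)) := by
  rw [periodic_range, periodic_split n t.val (ZMod.val_lt t)]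

/-- for `4 ∣ n`, `n > 4`, some periodic autocorrelation has absolute value at least `4` -/
theorem peak_four (n : ℕ) (hn4 : 4 < n) (hn : 4 ∣ n) (a : ℕ → ℤ)
    (ha : ∀ j < n, a j = 1 ∨ a j = -1) :
    ∃ t, 1 ≤ t ∧ t < n ∧ 4 ≤ |∑ j ∈ range n, a j * a ((j + t) % n)| := by
  by_contra hcon
  push Not at hcon
  have : NeZero n := ⟨by omega⟩
  have := seq_four (n := n) (fun x => a x.val) (fun i => ha _ (ZMod.val_lt i)) ?_
  · omega
  · intro t ht
    have htv : t.val ≠ 0 := fun h => ht ((ZMod.val_eq_zero t).mp h)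
    have htl : t.val < n := ZMod.val_lt t
    have hb := abs_lt.mp (hcon t.val (by omega) htl)
    obtain ⟨e, he⟩ := corr_add_mod4 n t.val (by omega) a ha
    rw [← periodic_split n t.val htl] at he
    rw [periodic_range]
    obtain ⟨c, hc⟩ := hn
    omega

/-- **Barker sequences of even length** have length `2` or `4`. -/
theorem even_barker (n : ℕ) (hn : Even n) (hn0 : n ≠ 0) (a : ℕ → ℤ)
    (ha : ∀ j < n, a j = 1 ∨ a j = -1)
    (hC : ∀ k, 1 ≤ k → k < n → |∑ j ∈ range (n - k), a j * a (j + k)| ≤ 1) :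
    n = 2 ∨ n = 4 := by
  by_contra hcon
  have hn2 : n ≠ 2 := fun e => hcon (Or.inl e)
  have hn4 : n ≠ 4 := fun e => hcon (Or.inr e)
  obtain ⟨m, hm⟩ := hn
  -- `n` is divisible by `4`
  have hmod : ∃ c : ℤ, (n : ℤ) = 4 * c := by
    obtain ⟨p, c, hp, _, hc⟩ := corr_mod4 n 2 (by omega) a ha
    obtain ⟨q, d, hq, _, hd⟩ := corr_mod4 n (n - 2) (by omega) a ha
    obtain ⟨e, he⟩ := corr_add_mod4 n 2 (by omega) a ha
    have b1 := abs_le.mp (hC 2 (by omega) (by omega))
    have b2 := abs_le.mp (hC (n - 2) (by omega) (by omega))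
    rw [Nat.sub_sub_self (by omega : 2 ≤ n)] at b2 hd
    rw [hc] at b1 he
    rw [hd] at b2 he
    have h2 : ((n - 2 : ℕ) : ℤ) = (n : ℤ) - 2 := by push_cast [Nat.cast_sub (by omega : 2 ≤ n)]; ring
    rw [h2] at b2 he
    refine ⟨-e, ?_⟩
    have hnm : (n : ℤ) = m + m := by exact_mod_cast hm
    rcases hp with rfl | rfl <;> rcases hq with rfl | rfl <;> omega
  obtain ⟨c, hc⟩ := hmod
  have : NeZero n := ⟨hn0⟩
  have := seq_four (n := n) (fun x => a x.val) (fun i => ha _ (ZMod.val_lt i)) ?_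
  · rcases this with h | h
    · omega
    · exact hn4 h
  · intro t ht
    have htv : t.val ≠ 0 := fun h => ht ((ZMod.val_eq_zero t).mp h)
    have htl : t.val < n := ZMod.val_lt t
    rw [periodic_eq]
    obtain ⟨e, he⟩ := corr_add_mod4 n t.val (by omega) a ha
    have b1 := abs_le.mp (hC t.val (by omega) htl)
    have b2 := abs_le.mp (hC (n - t.val) (by omega) (by omega))
    rw [Nat.sub_sub_self (by omega : t.val ≤ n)] at b2
    omega

end Vale.Agent.P033.H953
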