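import Mathlib

/-!
# The known Barker sequences
-/

namespace Vale.Agent.P033.H953

open Finset

/-- the sequence whose first entries are those of the list `l` -/
def seqOf (l : List ℤ) (j : ℕ) : ℤ := l.getD j 1

theorem barker_exists (n : ℕ) (hn : n ∈ ({1, 2, 3, 4, 5, 7, 11, 13} : Finset ℕ)) :
    ∃ a : ℕ → ℤ, (∀ j < n, a j = 1 ∨ a j = -1) ∧
      ∀ k, 1 ≤ k → k < n → |∑ j ∈ range (n - k), a j * a (j + k)| ≤ 1 := by
  suffices h : ∃ a : ℕ → ℤ, (∀ j < n, a j = 1 ∨ a j = -1) ∧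
      ∀ k < n, 1 ≤ k → |∑ j ∈ range (n - k), a j * a (j + k)| ≤ 1 by
    obtain ⟨a, h1, h2⟩ := h
    exact ⟨a, h1, fun k hk hkn => h2 k hkn hk⟩
  simp only [mem_insert, mem_singleton] at hn
  rcases hn with rfl | rfl | rfl | rfl | rfl | rfl | rfl | rfl
  · exact ⟨seqOf [1], by decide, by decide⟩
  · exact ⟨seqOf [1, 1], by decide, by decide⟩
  · exact ⟨seqOf [1, 1, -1], by decide, by decide⟩
  · exact ⟨seqOf [1, 1, 1, -1], by decide, by decide⟩
  · exact ⟨seqOf [1, 1, 1, -1, 1], by decide, by decide⟩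
  · exact ⟨seqOf [1, 1, 1, -1, -1, 1, -1], by decide, by decide⟩
  · exact ⟨seqOf [1, 1, 1, -1, -1, -1, 1, -1, -1, 1, -1], by decide, by decide⟩
  · exact ⟨seqOf [1, 1, 1, 1, 1, -1, -1, 1, 1, -1, 1, -1, 1], by decide, by decide⟩

end Vale.Agent.P033.H953
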