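import Mathlib
import Vale.Agent.P033.H953.Even

/-!
# Cyclic difference sets with `v = 4 (k - l)`
-/

namespace Vale.Agent.P033.H953

open Finset

/-- cyclic difference sets with `v = 4 (k - l)` exist only for `v = 4` -/
theorem menon_four {v : ℕ} [NeZero v] (D : Finset (ZMod v)) (l : ℕ)
    (hD : ∀ g : ZMod v, g ≠ 0 → #{p ∈ D ×ˢ D | p.1 - p.2 = g} = l)
    (hv : v + 4 * l = 4 * D.card) : v = 4 := by
  classical
  have h := seq_four (n := v) (fun x => if x ∈ D then -1 else 1)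
    (fun i => by by_cases hi : i ∈ D <;> simp [hi]) ?_
  · rcases h with h | h
    · omega
    · exact h
  · intro t ht
    have e1 : ∀ j : ZMod v, (if j ∈ D then (-1 : ℤ) else 1) * (if j + t ∈ D then (-1 : ℤ) else 1)
        = 1 - 2 * (if j ∈ D then 1 else 0) - 2 * (if j + t ∈ D then 1 else 0)
          + 4 * (if j ∈ D ∧ j + t ∈ D then 1 else 0) := by
      intro j
      by_cases h1 : j ∈ D <;> by_cases h2 : j + t ∈ D <;> simp [h1, h2]
    rw [sum_congr rfl fun j _ => e1 j]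
    rw [sum_add_distrib, sum_sub_distrib, sum_sub_distrib, ← mul_sum, ← mul_sum, ← mul_sum]
    have e2 : ∑ j : ZMod v, (if j ∈ D then (1 : ℤ) else 0) = D.card := by
      simp
    have e3 : ∑ j : ZMod v, (if j + t ∈ D then (1 : ℤ) else 0) = D.card := by
      rw [← e2]
      exact Equiv.sum_comp (Equiv.addRight t) (fun j => if j ∈ D then (1 : ℤ) else 0)
    have e4 : ∑ j : ZMod v, (if j ∈ D ∧ j + t ∈ D then (1 : ℤ) else 0) = l := by
      rw [← hD t ht, sum_boole]
      congr 1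
      refine card_bij' (fun j _ => ((j + t, j) : ZMod v × ZMod v)) (fun p _ => p.2) ?_ ?_ ?_ ?_
      · intro j hj
        simp only [mem_filter, mem_univ, true_and, mem_product] at hj ⊢
        exact ⟨⟨hj.2, hj.1⟩, by ring⟩
      · intro p hp
        simp only [mem_filter, mem_univ, true_and, mem_product] at hp ⊢
        refine ⟨hp.1.2, ?_⟩
        rw [← hp.2]
        convert hp.1.1 using 1
        ring
      · intro j hj; rfl
      · intro p hp
        simp only [mem_filter, mem_product] at hp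
        ext
        · simp only
          rw [← hp.2]; ring
        · rfl
    rw [e2, e3, e4]
    simp only [sum_const, card_univ, ZMod.card, nsmul_eq_mul, mul_one]
    have : (v : ℤ) + 4 * l = 4 * D.card := by exact_mod_cast hv
    linarith

theorem menon_dec : ∀ D : Finset (ZMod 4),
    (∀ g : ZMod 4, g ≠ 0 → #{p ∈ D ×ˢ D | p.1 - p.2 = g} = #{p ∈ D ×ˢ D | p.1 - p.2 = 1}) →
    4 + 4 * #{p ∈ D ×ˢ D | p.1 - p.2 = 1} = 4 * D.card →
    (D.card = 1 ∧ #{p ∈ D ×ˢ D | p.1 - p.2 = 1} = 0) ∨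
      (D.card = 3 ∧ #{p ∈ D ×ˢ D | p.1 - p.2 = 1} = 2) := by
  decide

theorem menon_iff (v k l : ℕ) (hv1 : 1 ≤ v) :
    (∃ D : Finset (ZMod v), D.card = k ∧
      (∀ g : ZMod v, g ≠ 0 → #{p ∈ D ×ˢ D | p.1 - p.2 = g} = l) ∧ v + 4 * l = 4 * k) ↔
    v = 4 ∧ ((k = 1 ∧ l = 0) ∨ (k = 3 ∧ l = 2)) := by
  constructor
  · rintro ⟨D, hk, hD, hv⟩
    have : NeZero v := ⟨by omega⟩
    have h4 := menon_four D l hD (by rw [hk]; exact hv)
    subst h4
    refine ⟨rfl, ?_⟩
    have h1 := hD 1 (by decide)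
    have h2 := menon_dec D (fun g hg => by rw [hD g hg, h1]) (by rw [h1, hk]; exact hv)
    rw [h1, hk] at h2
    exact h2
  · rintro ⟨rfl, ⟨rfl, rfl⟩ | ⟨rfl, rfl⟩⟩
    · exact ⟨{0}, by decide, by decide, by norm_num⟩
    · exact ⟨{0, 1, 2}, by decide, by decide, by norm_num⟩

end Vale.Agent.P033.H953
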